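import Mathlib

/-! Green operators of a finite sequence of linear maps (block S3a and S2 of the blueprint). -/

open scoped InnerProductSpace BigOperators

namespace Vale.Agent.P109.S3

section basic

variable {E : Type*} [NormedAddCommGroup E] [NormedSpace ℝ E]

/-- `Good n A K`: there are linear Green operators `X τ t` (`1 ≤ τ ≤ n`, `0 ≤ t ≤ n`) of the
recursion `x (t+1) = A t (x t) + g (t+1)`, of norm at most `K`. -/
def Good (n : ℕ) (A : ℕ → (E →L[ℝ] E)) (K : ℝ) : Prop :=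
  ∃ X : ℕ → ℕ → (E →L[ℝ] E),
    (∀ τ, 1 ≤ τ → τ ≤ n → ∀ t, t < n →
      X τ (t + 1) = (A t).comp (X τ t) + (if t + 1 = τ then ContinuousLinearMap.id ℝ E else 0)) ∧
    (∀ τ, 1 ≤ τ → τ ≤ n → ∀ t, t ≤ n → ‖X τ t‖ ≤ K)

theorem Good.congr {n : ℕ} {A A' : ℕ → (E →L[ℝ] E)} {K : ℝ} (h : Good n A K)
    (hA : ∀ t, t < n → A' t = A t) : Good n A' K := by
  obtain ⟨X, h1, h2⟩ := h
  exact ⟨X, fun τ a b t ht => by rw [h1 τ a b t ht, hA t ht], h2⟩

theorem Good.mono {n : ℕ} {A : ℕ → (E →L[ℝ] E)} {K K' : ℝ} (h : Good n A K) (hK : K ≤ K') :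
    Good n A K' := by
  obtain ⟨X, h1, h2⟩ := h
  exact ⟨X, h1, fun τ a b t ht => (h2 τ a b t ht).trans hK⟩

theorem Good.nonneg {n : ℕ} {A : ℕ → (E →L[ℝ] E)} {K : ℝ} (h : Good n A K) (hn : 1 ≤ n) :
    0 ≤ K := by
  obtain ⟨X, h1, h2⟩ := h
  exact (norm_nonneg _).trans (h2 1 le_rfl hn 0 (Nat.zero_le _))

/-- Solving the inhomogeneous recursion, linearly in the source. -/
theorem Good.solve {n : ℕ} {A : ℕ → (E →L[ℝ] E)} {K : ℝ} (h : Good n A K) (g : ℕ → E) :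
    ∃ x : ℕ → E, (∀ t, t < n → x (t + 1) = A t (x t) + g (t + 1)) ∧
      ∀ t, t ≤ n → ‖x t‖ ≤ K * ∑ s ∈ Finset.Icc 1 n, ‖g s‖ := by
  obtain ⟨X, h1, h2⟩ := h
  refine ⟨fun t => ∑ τ ∈ Finset.Icc 1 n, X τ t (g τ), ?_, ?_⟩
  · intro t ht
    have e1 : ∀ τ ∈ Finset.Icc 1 n, X τ (t + 1) (g τ)
        = A t (X τ t (g τ)) + (if t + 1 = τ then g τ else 0) := by
      intro τ hτ
      rw [Finset.mem_Icc] at hτ
      rw [h1 τ hτ.1 hτ.2 t ht]
      by_cases hc : t + 1 = τ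
      · simp [hc]
      · simp [hc]
    show ∑ τ ∈ Finset.Icc 1 n, X τ (t + 1) (g τ)
      = A t (∑ τ ∈ Finset.Icc 1 n, X τ t (g τ)) + g (t + 1)
    rw [Finset.sum_congr rfl e1, Finset.sum_add_distrib, map_sum]
    congr 1
    rw [Finset.sum_ite_eq]
    have : t + 1 ∈ Finset.Icc 1 n := by rw [Finset.mem_Icc]; omega
    simp [this]
  · intro t ht
    calc ‖∑ τ ∈ Finset.Icc 1 n, X τ t (g τ)‖
        ≤ ∑ τ ∈ Finset.Icc 1 n, ‖X τ t (g τ)‖ := norm_sum_le _ _
      _ ≤ ∑ τ ∈ Finset.Icc 1 n, K * ‖g τ‖ := by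
          refine Finset.sum_le_sum fun τ hτ => ?_
          rw [Finset.mem_Icc] at hτ
          exact ((X τ t).le_opNorm _).trans
            (mul_le_mul_of_nonneg_right (h2 τ hτ.1 hτ.2 t ht) (norm_nonneg _))
      _ = K * ∑ s ∈ Finset.Icc 1 n, ‖g s‖ := by rw [Finset.mul_sum]

/-- Same with a uniform bound on the source. -/
theorem Good.solve_sup {n : ℕ} {A : ℕ → (E →L[ℝ] E)} {K : ℝ} (h : Good n A K) (g : ℕ → E)
    {e : ℝ} (hg : ∀ t, t < n → ‖g (t + 1)‖ ≤ e) :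
    ∃ x : ℕ → E, (∀ t, t < n → x (t + 1) = A t (x t) + g (t + 1)) ∧
      ∀ t, t ≤ n → ‖x t‖ ≤ n * K * e := by
  rcases Nat.eq_zero_or_pos n with hn | hn
  · subst hn
    exact ⟨fun _ => 0, by simp, by simp⟩
  · obtain ⟨x, hx1, hx2⟩ := h.solve g
    refine ⟨x, hx1, fun t ht => (hx2 t ht).trans ?_⟩
    have hK := h.nonneg hn
    have : ∑ s ∈ Finset.Icc 1 n, ‖g s‖ ≤ n * e := by
      calc ∑ s ∈ Finset.Icc 1 n, ‖g s‖ ≤ ∑ s ∈ Finset.Icc 1 n, e := by
            refine Finset.sum_le_sum fun s hs => ?_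
            rw [Finset.mem_Icc] at hs
            obtain ⟨s', rfl⟩ : ∃ s', s = s' + 1 := ⟨s - 1, by omega⟩
            exact hg s' (by omega)
        _ = n * e := by simp
    nlinarith [mul_le_mul_of_nonneg_left this hK]

/-- The Green operators before the source: `X τ t = A_{0→t} X τ 0` for `t < τ`. -/
theorem green_before {n : ℕ} {A : ℕ → (E →L[ℝ] E)} {X : ℕ → ℕ → (E →L[ℝ] E)}
    (h1 : ∀ τ, 1 ≤ τ → τ ≤ n → ∀ t, t < n →
      X τ (t + 1) = (A t).comp (X τ t) + (if t + 1 = τ then ContinuousLinearMap.id ℝ E else 0))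
    (T : ℕ → (E →L[ℝ] E)) (hT0 : T 0 = ContinuousLinearMap.id ℝ E)
    (hT : ∀ t, T (t + 1) = (A t).comp (T t)) {τ : ℕ} (hτ1 : 1 ≤ τ) (hτn : τ ≤ n) :
    ∀ t, t < τ → X τ t = (T t).comp (X τ 0) := by
  intro t
  induction t with
  | zero => intro _; rw [hT0]; simp
  | succ t ih =>
    intro ht
    rw [h1 τ hτ1 hτn t (by omega), ih (by omega), if_neg (by omega), add_zero, hT,
      ContinuousLinearMap.comp_assoc]

end basic

section perturb

variable {E : Type*} [NormedAddCommGroup E] [NormedSpace ℝ E] [CompleteSpace E]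

/-- Perturbation of `Good`. -/
theorem Good.perturb {n : ℕ} {A A' : ℕ → (E →L[ℝ] E)} {K ζ : ℝ} (h : Good n A K)
    (hζ : ∀ t, t < n → ‖A' t - A t‖ ≤ ζ) (hs : n * K * ζ ≤ 1 / 2) : Good n A' (2 * K) := by
  rcases Nat.eq_zero_or_pos n with hn | hn
  · subst hn
    exact ⟨fun _ _ => 0, fun τ a b => by omega, fun τ a b => by omega⟩
  have hK := h.nonneg hn
  obtain ⟨X, h1, h2⟩ := h
  have hζ0 : 0 ≤ ζ := (norm_nonneg _).trans (hζ 0 hn)
  -- the affine map
  let L : (Fin (n + 1) → (E →L[ℝ] E)) → (Fin (n + 1) → (E →L[ℝ] E)) := fun Y t =>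
    ∑ s : Fin n, (X (s + 1) t).comp ((A' s - A s).comp (Y s.castSucc))
  have hL : ∀ Y Z, ‖L Y - L Z‖ ≤ (1 / 2) * ‖Y - Z‖ := by
    intro Y Z
    refine (pi_norm_le_iff_of_nonneg (by positivity)).2 fun t => ?_
    have e1 : (L Y - L Z) t = ∑ s : Fin n, (X (s + 1) t).comp ((A' s - A s).comp ((Y - Z) s.castSucc)) := by
      simp only [L, Pi.sub_apply, ← Finset.sum_sub_distrib, ContinuousLinearMap.comp_sub]
    rw [e1]
    calc ‖∑ s : Fin n, (X (s + 1) t).comp ((A' s - A s).comp ((Y - Z) s.castSucc))‖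
        ≤ ∑ s : Fin n, ‖(X (s + 1) t).comp ((A' s - A s).comp ((Y - Z) s.castSucc))‖ :=
          norm_sum_le _ _
      _ ≤ ∑ s : Fin n, K * (ζ * ‖Y - Z‖) := by
          refine Finset.sum_le_sum fun s _ => ?_
          refine (ContinuousLinearMap.opNorm_comp_le _ _).trans ?_
          refine mul_le_mul (h2 (s + 1) (by omega) (by omega) t (by omega)) ?_ (norm_nonneg _) hK
          refine (ContinuousLinearMap.opNorm_comp_le _ _).trans ?_
          exact mul_le_mul (hζ s s.2) (norm_le_pi_norm _ _) (norm_nonneg _) hζ0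
      _ = (n * K * ζ) * ‖Y - Z‖ := by simp; ring
      _ ≤ (1 / 2) * ‖Y - Z‖ := mul_le_mul_of_nonneg_right hs (norm_nonneg _)
  have key : ∀ τ, 1 ≤ τ → τ ≤ n → ∃ Y : Fin (n + 1) → (E →L[ℝ] E),
      (∀ t : Fin (n + 1), Y t = X τ t + L Y t) ∧ ‖Y‖ ≤ 2 * K := by
    intro τ a b
    let X0 : Fin (n + 1) → (E →L[ℝ] E) := fun t => X τ t
    let Φ : (Fin (n + 1) → (E →L[ℝ] E)) → (Fin (n + 1) → (E →L[ℝ] E)) := fun Y => X0 + L Y
    have hΦ : ContractingWith (1 / 2) Φ := by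
      refine ⟨by norm_num, LipschitzWith.of_dist_le_mul fun Y Z => ?_⟩
      rw [dist_eq_norm, dist_eq_norm]
      simp only [Φ, add_sub_add_left_eq_sub]
      simpa using hL Y Z
    have : Nonempty (Fin (n + 1) → (E →L[ℝ] E)) := ⟨0⟩
    refine ⟨ContractingWith.fixedPoint Φ hΦ, fun t => ?_, ?_⟩
    · have := congrFun hΦ.fixedPoint_isFixedPt t
      exact this.symm
    · set Y := ContractingWith.fixedPoint Φ hΦ with hY
      have hfix : X0 + L Y = Y := hΦ.fixedPoint_isFixedPt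
      have hX0 : ‖X0‖ ≤ K := (pi_norm_le_iff_of_nonneg hK).2 fun t => h2 τ a b t (by omega)
      have hLY : ‖L Y‖ ≤ (1 / 2) * ‖Y‖ := by
        have h0 : L 0 = 0 := by
          funext t; simp [L]
        simpa [h0] using hL Y 0
      have : ‖Y‖ ≤ ‖X0‖ + ‖L Y‖ := by
        calc ‖Y‖ = ‖X0 + L Y‖ := by rw [hfix]
          _ ≤ _ := norm_add_le _ _
      linarith
  choose! Y hY1 hY2 using key
  refine ⟨fun τ t => if ht : t < n + 1 then Y τ ⟨t, ht⟩ else 0, ?_, ?_⟩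
  · intro τ a b t ht
    beta_reduce
    rw [dif_pos (show t + 1 < n + 1 by omega), dif_pos (show t < n + 1 by omega)]
    have e0 := hY1 τ a b ⟨t, by omega⟩
    have e1 := hY1 τ a b ⟨t + 1, by omega⟩
    rw [e1]
    have e2 : L (Y τ) ⟨t + 1, by omega⟩
        = (A t).comp (L (Y τ) ⟨t, by omega⟩) + (A' t - A t).comp (Y τ ⟨t, by omega⟩) := by
      simp only [L]
      have e3 : ∀ s : Fin n, (X (s + 1) (t + 1)).comp ((A' s - A s).comp (Y τ s.castSucc))
          = (A t).comp ((X (s + 1) t).comp ((A' s - A s).comp (Y τ s.castSucc)))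
            + (if s = ⟨t, ht⟩ then (A' t - A t).comp (Y τ ⟨t, by omega⟩) else 0) := by
        intro s
        rw [h1 (s + 1) (by omega) (by omega) t ht, ContinuousLinearMap.add_comp,
          ContinuousLinearMap.comp_assoc]
        congr 1
        by_cases hc : s = ⟨t, ht⟩
        · subst hc; simp
        · have : ¬ (t + 1 = (s : ℕ) + 1) := by
            intro h'; apply hc; apply Fin.ext; simp; omega
          rw [if_neg this, if_neg hc, ContinuousLinearMap.zero_comp]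
      rw [Finset.sum_congr rfl fun s _ => e3 s, Finset.sum_add_distrib]
      congr 1
      · rw [← ContinuousLinearMap.comp_finsetSum]
      · simp
    rw [e2, h1 τ a b t ht]
    rw [e0]
    simp only [ContinuousLinearMap.comp_add, ContinuousLinearMap.sub_comp]
    abel
  · intro τ a b t ht
    beta_reduce
    rw [dif_pos (show t < n + 1 by omega)]
    exact (norm_le_pi_norm _ _).trans (hY2 τ a b)

end perturb

end Vale.Agent.P109.S3
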