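import Vale.Agent.P109.H644.Green

/-! Splitting: a lower bound for the parallel sum gives Green operators (block S2). -/

open scoped InnerProductSpace BigOperators

namespace Vale.Agent.P109.S3

variable {E : Type*} [NormedAddCommGroup E] [InnerProductSpace ℝ E] [FiniteDimensional ℝ E]

/-- Past quadratic form of the transition operators `T s t` (from time `s` to time `t`) at
time `t`, over `m` steps. -/
noncomputable def Pminus (T : ℤ → ℤ → (E →L[ℝ] E)) (t : ℤ) (m : ℕ) : E →L[ℝ] E :=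
  ∑ i ∈ Finset.range (m + 1),
    (ContinuousLinearMap.adjoint (T t (t - i))).comp (T t (t - i))

/-- Future quadratic form. -/
noncomputable def Pplus (T : ℤ → ℤ → (E →L[ℝ] E)) (t : ℤ) (m : ℕ) : E →L[ℝ] E :=
  ∑ i ∈ Finset.range (m + 1),
    (ContinuousLinearMap.adjoint (T t (t + i))).comp (T t (t + i))

theorem inner_Pminus (T : ℤ → ℤ → (E →L[ℝ] E)) (t : ℤ) (m : ℕ) (v : E) :
    ⟪v, Pminus T t m v⟫_ℝ = ∑ i ∈ Finset.range (m + 1), ‖T t (t - i) v‖ ^ 2 := by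
  unfold Pminus
  rw [ContinuousLinearMap.sum_apply, inner_sum]
  refine Finset.sum_congr rfl fun i _ => ?_
  rw [ContinuousLinearMap.comp_apply, ContinuousLinearMap.adjoint_inner_right,
    real_inner_self_eq_norm_sq]

theorem inner_Pplus (T : ℤ → ℤ → (E →L[ℝ] E)) (t : ℤ) (m : ℕ) (v : E) :
    ⟪v, Pplus T t m v⟫_ℝ = ∑ i ∈ Finset.range (m + 1), ‖T t (t + i) v‖ ^ 2 := by
  unfold Pplus
  rw [ContinuousLinearMap.sum_apply, inner_sum]
  refine Finset.sum_congr rfl fun i _ => ?_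
  rw [ContinuousLinearMap.comp_apply, ContinuousLinearMap.adjoint_inner_right,
    real_inner_self_eq_norm_sq]

/-- Abstract optimal splitting. -/
theorem exists_splitting (Pm Pp Nm Np : E →L[ℝ] E) (hm : Pm.comp Nm = ContinuousLinearMap.id ℝ E)
    (hp : Pp.comp Np = ContinuousLinearMap.id ℝ E) {c : ℝ} (hc : 0 < c)
    (hM : ∀ v : E, c * ‖v‖ ^ 2 ≤ ⟪v, (Nm + Np) v⟫_ℝ) :
    ∃ pm pp : E →L[ℝ] E, pm + pp = ContinuousLinearMap.id ℝ E ∧
      ∀ v, ⟪pm v, Pm (pm v)⟫_ℝ + ⟪pp v, Pp (pp v)⟫_ℝ ≤ c⁻¹ * ‖v‖ ^ 2 := by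
  have hinj : Function.Injective ((Nm + Np : E →L[ℝ] E) : E →ₗ[ℝ] E) := by
    refine (injective_iff_map_eq_zero _).2 fun v hv => ?_
    have h1 := hM v
    have h2 : (Nm + Np) v = 0 := hv
    rw [h2, inner_zero_right] at h1
    have h3 : ‖v‖ ^ 2 ≤ 0 := by
      by_contra hcon
      push Not at hcon
      nlinarith [mul_pos hc hcon]
    have h4 : ‖v‖ = 0 := by nlinarith [norm_nonneg v, sq_nonneg ‖v‖]
    exact norm_eq_zero.1 h4
  let e : E ≃ₗ[ℝ] E := LinearEquiv.ofInjectiveEndo _ hinj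
  have he : ∀ v, (Nm + Np) (e.symm v) = v := fun v => e.apply_symm_apply v
  let W : E →L[ℝ] E := LinearMap.toContinuousLinearMap (e.symm : E →ₗ[ℝ] E)
  have hW : ∀ v, (Nm + Np) (W v) = v := he
  refine ⟨Nm.comp W, Np.comp W, ?_, ?_⟩
  · ext v
    simpa using hW v
  · intro v
    have em : Pm (Nm.comp W v) = W v := by
      have := congrArg (fun f : E →L[ℝ] E => f (W v)) hm
      simpa using this
    have ep : Pp (Np.comp W v) = W v := by
      have := congrArg (fun f : E →L[ℝ] E => f (W v)) hp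
      simpa using this
    rw [em, ep, ← inner_add_left]
    have e1 : (Nm.comp W v + Np.comp W v) = v := by simpa using hW v
    rw [e1]
    -- `⟪v, W v⟫ ≤ c⁻¹ ‖v‖²`
    have h1 := hM (W v)
    rw [hW v] at h1
    have h2 : ⟪W v, v⟫_ℝ ≤ ‖W v‖ * ‖v‖ := real_inner_le_norm _ _
    have h3 : c * ‖W v‖ ≤ ‖v‖ := by
      rcases (norm_nonneg (W v)).eq_or_lt with h0 | h0
      · rw [← h0]; simp
      · nlinarith
    have h4 : ⟪v, W v⟫_ℝ ≤ ‖v‖ * ‖W v‖ := real_inner_le_norm _ _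
    have h5 : ‖W v‖ ≤ c⁻¹ * ‖v‖ := by
      rw [inv_mul_eq_div, le_div_iff₀ hc]; linarith
    calc ⟪v, W v⟫_ℝ ≤ ‖v‖ * ‖W v‖ := h4
      _ ≤ ‖v‖ * (c⁻¹ * ‖v‖) := mul_le_mul_of_nonneg_left h5 (norm_nonneg _)
      _ = c⁻¹ * ‖v‖ ^ 2 := by ring

/-- Green operators from a lower bound of the parallel sums at the times `1, …, n`, with windows
of length `m ≥ n`. -/
theorem good_of_lower {n m : ℕ} (hnm : n ≤ m) (T : ℤ → ℤ → (E →L[ℝ] E))
    (hT1 : ∀ t, T t t = ContinuousLinearMap.id ℝ E)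
    (hTc : ∀ s t u, (T t u).comp (T s t) = T s u) {K : ℝ} (hK : 0 < K)
    (hM : ∀ τ : ℕ, 1 ≤ τ → τ ≤ n → ∃ Nm Np : E →L[ℝ] E,
      (Pminus T τ m).comp Nm = ContinuousLinearMap.id ℝ E ∧
      (Pplus T τ m).comp Np = ContinuousLinearMap.id ℝ E ∧
      ∀ v : E, (K ^ 2)⁻¹ * ‖v‖ ^ 2 ≤ ⟪v, (Nm + Np) v⟫_ℝ) :
    Good n (fun t => T t (t + 1)) K := by
  have key : ∀ τ : ℕ, 1 ≤ τ → τ ≤ n → ∃ pm pp : E →L[ℝ] E,
      pm + pp = ContinuousLinearMap.id ℝ E ∧
      (∀ t : ℤ, 0 ≤ t → t ≤ τ → ‖(T τ t).comp pm‖ ≤ K) ∧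
      (∀ t : ℤ, τ ≤ t → t ≤ n → ‖(T τ t).comp pp‖ ≤ K) := by
    intro τ a b
    obtain ⟨Nm, Np, h1, h2, h3⟩ := hM τ a b
    obtain ⟨pm, pp, hs, hq⟩ := exists_splitting _ _ _ _ h1 h2 (by positivity) h3
    have hq' : ∀ v, ⟪pm v, Pminus T τ m (pm v)⟫_ℝ ≤ K ^ 2 * ‖v‖ ^ 2 ∧
        ⟪pp v, Pplus T τ m (pp v)⟫_ℝ ≤ K ^ 2 * ‖v‖ ^ 2 := by
      intro v
      have h := hq v
      rw [inv_inv] at h
      have p1 : 0 ≤ ⟪pm v, Pminus T τ m (pm v)⟫_ℝ := by
        rw [inner_Pminus]; positivity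
      have p2 : 0 ≤ ⟪pp v, Pplus T τ m (pp v)⟫_ℝ := by
        rw [inner_Pplus]; positivity
      exact ⟨by linarith, by linarith⟩
    refine ⟨pm, pp, hs, ?_, ?_⟩
    · intro t ht0 htτ
      refine ContinuousLinearMap.opNorm_le_bound _ hK.le fun v => ?_
      obtain ⟨i, hi⟩ : ∃ i : ℕ, t = τ - i := ⟨(τ - t).toNat, by omega⟩
      have h := (hq' v).1
      rw [inner_Pminus] at h
      have h' : ‖T τ (τ - i) (pm v)‖ ^ 2
          ≤ ∑ i ∈ Finset.range (m + 1), ‖T τ (τ - i) (pm v)‖ ^ 2 :=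
        Finset.single_le_sum (f := fun i : ℕ => ‖T τ (τ - i) (pm v)‖ ^ 2)
          (fun _ _ => by positivity) (Finset.mem_range.2 (by omega))
      rw [ContinuousLinearMap.comp_apply, hi]
      refine abs_le_of_sq_le_sq' ?_ (by positivity) |>.2
      calc ‖T τ (τ - i) (pm v)‖ ^ 2 ≤ K ^ 2 * ‖v‖ ^ 2 := h'.trans h
        _ = (K * ‖v‖) ^ 2 := by ring
    · intro t ht0 htn
      refine ContinuousLinearMap.opNorm_le_bound _ hK.le fun v => ?_
      obtain ⟨i, hi⟩ : ∃ i : ℕ, t = τ + i := ⟨(t - τ).toNat, by omega⟩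
      have h := (hq' v).2
      rw [inner_Pplus] at h
      have h' : ‖T τ (τ + i) (pp v)‖ ^ 2
          ≤ ∑ i ∈ Finset.range (m + 1), ‖T τ (τ + i) (pp v)‖ ^ 2 :=
        Finset.single_le_sum (f := fun i : ℕ => ‖T τ (τ + i) (pp v)‖ ^ 2)
          (fun _ _ => by positivity) (Finset.mem_range.2 (by omega))
      rw [ContinuousLinearMap.comp_apply, hi]
      refine abs_le_of_sq_le_sq' ?_ (by positivity) |>.2
      calc ‖T τ (τ + i) (pp v)‖ ^ 2 ≤ K ^ 2 * ‖v‖ ^ 2 := h'.trans h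
        _ = (K * ‖v‖) ^ 2 := by ring
  choose! pm pp hs hpm hpp using key
  refine ⟨fun τ t => if τ ≤ t then (T τ t).comp (pp τ) else -((T τ t).comp (pm τ)), ?_, ?_⟩
  · intro τ a b t ht
    beta_reduce
    have hc : (T t (t + 1)).comp (T τ t) = T τ (t + 1) := hTc _ _ _
    by_cases h1 : τ ≤ t
    · rw [if_pos h1, if_pos (show τ ≤ t + 1 by omega), if_neg (show ¬ t + 1 = τ by omega),
        add_zero, ← ContinuousLinearMap.comp_assoc, hc]
      push_cast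
      rfl
    · rw [if_neg h1]
      by_cases h2 : t + 1 = τ
      · rw [if_pos h2, if_pos (show τ ≤ t + 1 by omega), ContinuousLinearMap.comp_neg,
          ← ContinuousLinearMap.comp_assoc, hc]
        have h3 : ((t : ℤ) + 1) = (τ : ℤ) := by exact_mod_cast h2
        push_cast
        rw [h3, hT1, ContinuousLinearMap.id_comp, ContinuousLinearMap.id_comp, ← hs τ a b]
        abel
      · rw [if_neg h2, if_neg (show ¬ τ ≤ t + 1 by omega), add_zero,
          ContinuousLinearMap.comp_neg, ← ContinuousLinearMap.comp_assoc, hc]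
        push_cast
        rfl
  · intro τ a b t ht
    beta_reduce
    split_ifs with h1
    · exact hpp τ a b t (by exact_mod_cast h1) (by exact_mod_cast ht)
    · rw [norm_neg]
      exact hpm τ a b t (by positivity) (by push Not at h1; exact_mod_cast h1.le)

end Vale.Agent.P109.S3
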