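import Mathlib

/-! Taylor closeness (block S5 of the blueprint): two maps whose jets of order `≤ k` at the
centre of a small ball are `δ`-close are close with all their derivatives of order `≤ k` on the
ball. -/

namespace Vale.Agent.P109.S5

variable {E F : Type*} [NormedAddCommGroup E] [NormedSpace ℝ E]
  [NormedAddCommGroup F] [NormedSpace ℝ F]

/-- One step: control of a derivative at the centre and of the next one on the ball. -/
theorem norm_iteratedFDeriv_le_step {h : E → F} {c : E} {r : ℝ} {k m : ℕ} (hm : m ≤ k)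
    (hh : ∀ x ∈ Metric.closedBall c r, ContDiffAt ℝ (k + 1 : ℕ) h x) {δ M : ℝ}
    (hr : 0 ≤ r) (hM : 0 ≤ M)
    (h0 : ‖iteratedFDeriv ℝ m h c‖ ≤ δ)
    (h1 : ∀ x ∈ Metric.closedBall c r, ‖iteratedFDeriv ℝ (m + 1) h x‖ ≤ M) :
    ∀ x ∈ Metric.closedBall c r, ‖iteratedFDeriv ℝ m h x‖ ≤ δ + M * r := by
  intro x hx
  have hd : ∀ y ∈ Metric.closedBall c r, DifferentiableAt ℝ (iteratedFDeriv ℝ m h) y := by
    intro y hy
    refine (hh y hy).differentiableAt_iteratedFDeriv ?_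
    exact_mod_cast Nat.lt_succ_of_le hm
  have hb : ∀ y ∈ Metric.closedBall c r, ‖fderiv ℝ (iteratedFDeriv ℝ m h) y‖ ≤ M := by
    intro y hy
    rw [norm_fderiv_iteratedFDeriv]
    exact h1 y hy
  have hc : c ∈ Metric.closedBall c r := Metric.mem_closedBall_self hr
  have key := (convex_closedBall c r).norm_image_sub_le_of_norm_fderiv_le hd hb hc hx
  have hxr : ‖x - c‖ ≤ r := by
    rw [← dist_eq_norm]; exact Metric.mem_closedBall.1 hx
  have h2 : ‖iteratedFDeriv ℝ m h x‖ ≤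
      ‖iteratedFDeriv ℝ m h x - iteratedFDeriv ℝ m h c‖ + ‖iteratedFDeriv ℝ m h c‖ := by
    simpa using norm_add_le (iteratedFDeriv ℝ m h x - iteratedFDeriv ℝ m h c)
      (iteratedFDeriv ℝ m h c)
  have h3 : M * ‖x - c‖ ≤ M * r := mul_le_mul_of_nonneg_left hxr hM
  linarith

/-- Taylor closeness for one map. -/
theorem norm_iteratedFDeriv_le {h : E → F} {c : E} {r : ℝ} {k : ℕ}
    (hh : ∀ x ∈ Metric.closedBall c r, ContDiffAt ℝ (k + 1 : ℕ) h x) {δ M : ℝ}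
    (hr : 0 ≤ r) (hr1 : r ≤ 1) (hδ : 0 ≤ δ) (hM : 0 ≤ M)
    (h0 : ∀ m, m ≤ k → ‖iteratedFDeriv ℝ m h c‖ ≤ δ)
    (h1 : ∀ x ∈ Metric.closedBall c r, ‖iteratedFDeriv ℝ (k + 1) h x‖ ≤ M) (m : ℕ)
    (hm : m ≤ k + 1) :
    ∀ x ∈ Metric.closedBall c r,
      ‖iteratedFDeriv ℝ m h x‖ ≤ ((k + 1 - m : ℕ) : ℝ) * δ + M * r ^ (k + 1 - m) := by
  suffices H : ∀ j, j ≤ k + 1 → ∀ x ∈ Metric.closedBall c r,
      ‖iteratedFDeriv ℝ (k + 1 - j) h x‖ ≤ (j : ℝ) * δ + M * r ^ j by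
    have := H (k + 1 - m) (Nat.sub_le _ _)
    rwa [Nat.sub_sub_self hm] at this
  intro j
  induction j with
  | zero =>
    intro _ x hx
    simpa using h1 x hx
  | succ j ih =>
    intro hj x hx
    have e : k + 1 - j = (k + 1 - (j + 1)) + 1 := by omega
    have ih' := ih (by omega)
    rw [e] at ih'
    have hb : 0 ≤ (j : ℝ) * δ + M * r ^ j := by positivity
    have key := norm_iteratedFDeriv_le_step (m := k + 1 - (j + 1)) (by omega) hh hr hb
      (h0 _ (by omega)) ih' x hx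
    have h4 : (j : ℝ) * δ * r ≤ (j : ℝ) * δ := by
      have : 0 ≤ (j : ℝ) * δ := by positivity
      nlinarith
    have h5 : δ + ((j : ℝ) * δ + M * r ^ j) * r ≤ ((j + 1 : ℕ) : ℝ) * δ + M * r ^ (j + 1) := by
      push_cast
      rw [pow_succ]
      nlinarith
    exact key.trans h5

/-- **Taylor closeness.** `f` and `g` are `C^(k+1)` on a closed ball of radius `r ≤ 1`, their
derivatives of order `≤ k` at the centre differ by at most `δ`, and the derivative of order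
`k + 1` of the difference is at most `M` on the ball. Then all the derivatives of order `m ≤ k`
differ by at most `(k + 1) δ + M r^(k+1-m)` on the ball. -/
theorem taylor_close {f g : E → F} {c : E} {r : ℝ} {k : ℕ}
    (hf : ∀ x ∈ Metric.closedBall c r, ContDiffAt ℝ (k + 1 : ℕ) f x)
    (hg : ∀ x ∈ Metric.closedBall c r, ContDiffAt ℝ (k + 1 : ℕ) g x) {δ M : ℝ}
    (hr : 0 ≤ r) (hr1 : r ≤ 1)
    (h0 : ∀ m, m ≤ k → ‖iteratedFDeriv ℝ m f c - iteratedFDeriv ℝ m g c‖ ≤ δ)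
    (h1 : ∀ x ∈ Metric.closedBall c r,
      ‖iteratedFDeriv ℝ (k + 1) f x - iteratedFDeriv ℝ (k + 1) g x‖ ≤ M) (m : ℕ) (hm : m ≤ k) :
    ∀ x ∈ Metric.closedBall c r,
      ‖iteratedFDeriv ℝ m f x - iteratedFDeriv ℝ m g x‖ ≤
        ((k : ℝ) + 1) * δ + M * r ^ (k + 1 - m) := by
  have hc : c ∈ Metric.closedBall c r := Metric.mem_closedBall_self hr
  have hδ : 0 ≤ δ := (norm_nonneg _).trans (h0 0 (Nat.zero_le _))
  have hM : 0 ≤ M := (norm_nonneg _).trans (h1 c hc)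
  have hs : ∀ i, i ≤ k + 1 → ∀ x ∈ Metric.closedBall c r,
      iteratedFDeriv ℝ i (f - g) x = iteratedFDeriv ℝ i f x - iteratedFDeriv ℝ i g x := by
    intro i hi x hx
    have hi' : ((i : ℕ) : WithTop ℕ∞) ≤ ((k + 1 : ℕ) : WithTop ℕ∞) := by exact_mod_cast hi
    exact iteratedFDeriv_sub_apply ((hf x hx).of_le hi') ((hg x hx).of_le hi')
  intro x hx
  have key := norm_iteratedFDeriv_le (h := f - g) (c := c) (r := r) (k := k) (δ := δ) (M := M)
    (fun y hy => (hf y hy).sub (hg y hy)) hr hr1 hδ hM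
    (fun i hi => by rw [hs i (by omega) c hc]; exact h0 i hi)
    (fun y hy => by rw [hs (k + 1) le_rfl y hy]; exact h1 y hy) m (by omega) x hx
  rw [hs m (by omega) x hx] at key
  refine key.trans ?_
  have h6 : ((k + 1 - m : ℕ) : ℝ) ≤ (k : ℝ) + 1 := by
    have : (k + 1 - m : ℕ) ≤ k + 1 := Nat.sub_le _ _
    exact_mod_cast this
  have := mul_le_mul_of_nonneg_right h6 hδ
  linarith

/-- The same with separate bounds for the derivatives of order `k + 1`. -/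
theorem taylor_close' {f g : E → F} {c : E} {r : ℝ} {k : ℕ}
    (hf : ∀ x ∈ Metric.closedBall c r, ContDiffAt ℝ (k + 1 : ℕ) f x)
    (hg : ∀ x ∈ Metric.closedBall c r, ContDiffAt ℝ (k + 1 : ℕ) g x) {δ N : ℝ}
    (hr : 0 ≤ r) (hr1 : r ≤ 1)
    (h0 : ∀ m, m ≤ k → ‖iteratedFDeriv ℝ m f c - iteratedFDeriv ℝ m g c‖ ≤ δ)
    (h1 : ∀ x ∈ Metric.closedBall c r, ‖iteratedFDeriv ℝ (k + 1) f x‖ ≤ N)
    (h2 : ∀ x ∈ Metric.closedBall c r, ‖iteratedFDeriv ℝ (k + 1) g x‖ ≤ N) (m : ℕ)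
    (hm : m ≤ k) :
    ∀ x ∈ Metric.closedBall c r,
      ‖iteratedFDeriv ℝ m f x - iteratedFDeriv ℝ m g x‖ ≤
        ((k : ℝ) + 1) * δ + 2 * N * r ^ (k + 1 - m) := by
  refine taylor_close hf hg hr hr1 h0 (fun x hx => ?_) m hm
  have := norm_sub_le (iteratedFDeriv ℝ (k + 1) f x) (iteratedFDeriv ℝ (k + 1) g x)
  linarith [h1 x hx, h2 x hx]

/-- Order zero, in terms of the maps themselves. -/
theorem norm_sub_le_of_taylor {f g : E → F} {x : E} {ε : ℝ}
    (h : ‖iteratedFDeriv ℝ 0 f x - iteratedFDeriv ℝ 0 g x‖ ≤ ε) : ‖f x - g x‖ ≤ ε := by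
  have e : f x - g x =
      (iteratedFDeriv ℝ 0 f x - iteratedFDeriv ℝ 0 g x) (fun _ => 0) := by
    simp
  rw [e]
  refine ((iteratedFDeriv ℝ 0 f x - iteratedFDeriv ℝ 0 g x).le_opNorm (fun _ => 0)).trans ?_
  simpa using h

/-- Order one, in terms of the derivatives. -/
theorem norm_fderiv_sub_le_of_taylor {f g : E → F} {x : E} {ε : ℝ}
    (h : ‖iteratedFDeriv ℝ 1 f x - iteratedFDeriv ℝ 1 g x‖ ≤ ε) (hε : 0 ≤ ε) :
    ‖fderiv ℝ f x - fderiv ℝ g x‖ ≤ ε := by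
  refine ContinuousLinearMap.opNorm_le_bound _ hε (fun v => ?_)
  have e : (fderiv ℝ f x - fderiv ℝ g x) v =
      (iteratedFDeriv ℝ 1 f x - iteratedFDeriv ℝ 1 g x) (fun _ => v) := by
    simp [iteratedFDeriv_one_apply]
  rw [e]
  refine ((iteratedFDeriv ℝ 1 f x - iteratedFDeriv ℝ 1 g x).le_opNorm (fun _ => v)).trans ?_
  have : (∏ _i : Fin 1, ‖v‖) = ‖v‖ := by simp
  rw [this]
  exact mul_le_mul_of_nonneg_right h (norm_nonneg _)

/-- Order two, in terms of the second derivatives. -/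
theorem norm_fderiv_fderiv_le {f : E → F} {x : E} {ε : ℝ}
    (h : ‖iteratedFDeriv ℝ 2 f x‖ ≤ ε) :
    ‖fderiv ℝ (fderiv ℝ f) x‖ ≤ ε := by
  have hε : 0 ≤ ε := (norm_nonneg _).trans h
  refine ContinuousLinearMap.opNorm_le_bound _ hε (fun v => ?_)
  refine ContinuousLinearMap.opNorm_le_bound _ (by positivity) (fun w => ?_)
  have e : (fderiv ℝ (fderiv ℝ f) x) v w = iteratedFDeriv ℝ 2 f x ![v, w] := by
    rw [iteratedFDeriv_two_apply]; simp
  rw [e]
  refine ((iteratedFDeriv ℝ 2 f x).le_opNorm ![v, w]).trans ?_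
  have : (∏ i : Fin 2, ‖(![v, w] : Fin 2 → E) i‖) = ‖v‖ * ‖w‖ := by simp [Fin.prod_univ_two]
  rw [this, ← mul_assoc]
  have h3 := mul_le_mul_of_nonneg_right h (norm_nonneg v)
  exact mul_le_mul_of_nonneg_right h3 (norm_nonneg w)

end Vale.Agent.P109.S5
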